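import Vale.Agent.P022E.Twq.Main

/-!
# P022, non solvable case, block Twq: the choice of the auxiliary primes
-/

set_option linter.all false

noncomputable section

namespace Vale.Agent.P022E.Twq

open NumberField IsLocalRing Matrix
open Vale.Agent.P022 Vale.Agent.P022E.Sel
open Vale.Agent.P027M.S (Inert mx)

open P022D.Twq.Mn in
/-- **the auxiliary primes** -/
theorem twq2 (hS : SEL) : TWQ2 := by
  intro F _ _ _ ρb H T D hD h0 h2 hdec
  classical
  obtain ⟨r, σ, U, A0, hU, hn, hU1, hTA, hσ, hsel⟩ := hS F ρb H T D hD h0 h2 hdec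
  refine ⟨r, ?_, fun O R _ _ _ _ _ _ _ _ red lb x ρ Ps hL hfin hP => ?_⟩
  · obtain ⟨q, hq, hA⟩ := inj (fun i q => Aux ρb U A0 (σ i) q) fun i B => by
      obtain ⟨q, a1, a2, a3⟩ := auxC F ρb H hD U (A0 ∪ B) (σ i) hU (hσ i).2
      exact ⟨q, fun h => a2 (Finset.mem_union_right _ h), a1,
        fun h => a2 (Finset.mem_union_left _ h), a3⟩
    exact fun Z hZ => hsel q hq hA Z fun z hz => ⟨(hZ z hz).coc, (hZ z hz).opn,
      fun l hl h1 _ => (hZ z hz).unr l hl h1 (Finset.notMem_empty l), (hZ z hz).loc, (hZ z hz).zero⟩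
  let r' : GQ →* GL (Fin 2) R := ρ.toHomUnits
  have hr : ∀ g, mx ρb g = (r' g : M2 R).map lb := hL.lift
  have hc : P022D.Good.Cont r' (maximalIdeal R) := hL.cont
  have hδ : ∀ i, IsUnit (P022D.Good.disc (ρ (σ i))) := fun i => disc_unit hL (hσ i).2
  refine ⟨fun i => P022D.Good.disc (ρ (σ i)), fun i => ⟨((hδ i).map x).ne_zero,
    fun p hp k => (hP p hp).prime.ne_top (p.eq_top_of_isUnit_mem k (hδ i))⟩, fun n A => ?_⟩
  obtain ⟨V, hV, hcong⟩ := P022D.Sel.cong n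
  obtain ⟨q, hq, hA⟩ := inj (fun i q => Aux ρb (U ⊓ V ⊓ P022D.Good.Kc r' (maximalIdeal R ^ n)) (A ∪ A0)
    (σ i) q) fun i B => by
      obtain ⟨q, a1, a2, a3⟩ := auxC F ρb H hD (U ⊓ V ⊓ P022D.Good.Kc r' (maximalIdeal R ^ n))
        (A ∪ A0 ∪ B) (σ i) ((hU.inter hV).inter (hc.isOpen n)) (hσ i).2
      exact ⟨q, fun h => a2 (Finset.mem_union_right _ h), a1,
        fun h => a2 (Finset.mem_union_left _ h), a3⟩
  refine ⟨q, hq, hsel q hq fun i => ?_, fun i => ?_⟩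
  · obtain ⟨a1, a2, φ, m, a3, a4, a5, a6⟩ := hA i
    exact ⟨a1, fun h => a2 (Finset.mem_union_right _ h), φ, m, a3, a4, a5.1.1, a6⟩
  obtain ⟨a1, a2, φ, m, a3, a4, a5, a6⟩ := hA i
  have hT : q i ∉ T := fun h => a2 (Finset.mem_union_right _ (hTA h))
  obtain ⟨c1, c2⟩ := hcong (q i) m _ φ a1 (fun h => hT (h ▸ h2))
    (hσ i).1 a3 a5.1.2
  have cj : ∀ φ', IsFrob (q i) φ' → ∃ c : GQ, r' φ = (r' c)⁻¹ * r' φ' * r' c := fun φ' h => by
    obtain ⟨c, hc⟩ := H20.frob_conj r' a1 (fun P hP hl g hg =>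
      Units.ext (hL.unr _ a1 hT P hP hl g hg)) h a3
    exact ⟨c⁻¹, by rw [hc, map_inv, inv_inv]⟩
  have rb : ∀ g, ρb g = Units.map (lb.mapMatrix (m := Fin 2)).toMonoidHom (r' g) := fun g =>
    Units.ext (hr g)
  refine ⟨fun h => a2 (Finset.mem_union_left _ h), hT, a1, c1, c2, fun φ' h hs => ?_,
    fun φ' h => ?_⟩
  · obtain ⟨c, hc⟩ := cj φ' h
    exact a6 (sc_conj (c := c) (by rw [rb, rb, rb, hc, map_mul, map_mul, map_inv]) hs)
  obtain ⟨c, hc⟩ := cj φ' h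
  have t1 : (ρ φ').trace = (ρ φ).trace := by
    have := congrArg (fun z : GL (Fin 2) R => (z : M2 R).trace) hc
    simp only [Units.val_mul] at this
    rw [trace_mul_comm, ← Matrix.mul_assoc, Units.mul_inv, Matrix.one_mul] at this
    exact this.symm
  have t2 : (ρ φ').det = (ρ φ).det := by
    have := congrArg (fun z : GL (Fin 2) R => (z : M2 R).det) hc
    simp only [Units.val_mul] at this
    rw [det_mul, det_mul, mul_right_comm, ← det_mul, Units.inv_mul, det_one, one_mul] at this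
    exact this.symm
  obtain ⟨s, b, e⟩ := pow_lin (ρ (σ i)) m
  have hs : IsUnit s := by
    by_contra hs
    have h1 : lb s = 0 := (hL.ker s).2 ((mem_maximalIdeal s).2 hs)
    have h3 : mx ρb ((σ i) ^ m) = lb b • (1 : M2 F) := by
      rw [hL.lift, map_pow, e]
      ext a a'
      fin_cases a <;> fin_cases a' <;> simp [h1]
    rw [← P022D.Good.sc_mul (hU1 _ a5.1.1), mul_inv_cancel_left] at a6
    refine a6 ⟨?_, ?_, ?_⟩ <;> rw [h3] <;> simp
  have d1 := P022D.Good.disc_sub r' (maximalIdeal R ^ n) φ a5.2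
  rw [mul_inv_cancel_left, show ((r' ((σ i) ^ m) : GL (Fin 2) R) : M2 R) =
    ρ ((σ i) ^ m) from rfl, map_pow, e, P022D.Good.disc_lin] at d1
  have d2 := P022D.Good.Dq_sub r' (maximalIdeal R ^ n) (q := q i) (by
    obtain ⟨k, hk⟩ := c1
    have : ((q i : ℕ) : R) - 1 = 2 ^ n * k := by
      rw [← Nat.cast_pred a1.pos, hk]; push_cast; rfl
    rw [this]
    refine Ideal.mul_mem_right _ _ (Ideal.pow_mem_pow ((hL.ker 2).1 ?_) n)
    rw [map_ofNat]
    exact CharTwo.two_eq_zero) φ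
  refine ⟨(hs.pow 2).unit, ?_⟩
  have := Ideal.sub_mem _ d2 d1
  rw [t1, t2, IsUnit.unit_spec]
  rwa [sub_sub_sub_cancel_right] at this

end Vale.Agent.P022E.Twq
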